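import Vale.Agent.P139.H498.Int4

/-!
# P139 / H381 : the regime of large angular momentum

Closing lemma for `VA, VB` large compared with `|Im μ|` and `X ^ 2`: only the two pairing
identities are used, there is no upper bound on the angular momentum.
-/

open Complex Set MeasureTheory Filter Topology
open scoped ComplexConjugate

namespace Vale.Agent.P139.H381

open Vale.Agent.P139.H498

/-- Pointwise coercivity of the sum of the two pairings. -/
theorem pair_coercive {m x va vb V X0 mi : ℝ} {μ a b a1 b1 : ℂ} {c0 : ℝ} (hm : 0 ≤ m)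
    (hva : V ≤ va) (hvb : V ≤ vb) (hx : |x| ≤ X0) (hmi : |μ.im| ≤ mi) :
    m * (3 / 4 * (normSq a1 + normSq b1) + (V - X0 ^ 2 - mi) * (normSq a + normSq b)) ≤
      ((m : ℂ) * (((normSq a1 + va * normSq a : ℝ) : ℂ)
        + (μ * b + x * b1 + c0 * b) * conj a)).re
      + ((m : ℂ) * (((normSq b1 + vb * normSq b : ℝ) : ℂ)
        - (μ * a + x * a1 + c0 * a) * conj b)).re := by
  have hX2 : x ^ 2 ≤ X0 ^ 2 := by
    have := abs_nonneg x
    rw [← sq_abs x]
    exact pow_le_pow_left₀ this hx 2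
  rw [Complex.re_ofReal_mul, Complex.re_ofReal_mul, ← mul_add]
  refine mul_le_mul_of_nonneg_left ?_ hm
  obtain ⟨h1, h2⟩ := abs_le.mp hmi
  simp only [Complex.normSq_apply, Complex.add_re, Complex.mul_re, Complex.sub_re,
    Complex.ofReal_re, Complex.conj_re, Complex.conj_im, Complex.ofReal_im, Complex.add_im,
    Complex.mul_im, zero_mul, sub_zero]
  -- Young inequalities
  have y1 : x * (b1.re * a.re + b1.im * a.im) ≥
      -(1 / 4 * (b1.re * b1.re + b1.im * b1.im) + x ^ 2 * (a.re * a.re + a.im * a.im)) := by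
    nlinarith [sq_nonneg (b1.re / 2 + x * a.re), sq_nonneg (b1.im / 2 + x * a.im)]
  have y2 : -(x * (a1.re * b.re + a1.im * b.im)) ≥
      -(1 / 4 * (a1.re * a1.re + a1.im * a1.im) + x ^ 2 * (b.re * b.re + b.im * b.im)) := by
    nlinarith [sq_nonneg (a1.re / 2 - x * b.re), sq_nonneg (a1.im / 2 - x * b.im)]
  have na : 0 ≤ a.re * a.re + a.im * a.im := by nlinarith [sq_nonneg a.re, sq_nonneg a.im]
  have nb : 0 ≤ b.re * b.re + b.im * b.im := by nlinarith [sq_nonneg b.re, sq_nonneg b.im]
  have y3 : 2 * (μ.im * (b.re * a.im - b.im * a.re)) ≥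
      -(mi * ((a.re * a.re + a.im * a.im) + (b.re * b.re + b.im * b.im))) := by
    have hmi0 : 0 ≤ mi := (abs_nonneg _).trans hmi
    have k1 : |2 * (b.re * a.im - b.im * a.re)| ≤
        (a.re * a.re + a.im * a.im) + (b.re * b.re + b.im * b.im) := by
      rw [abs_le]
      constructor
      · nlinarith [sq_nonneg (b.re + a.im), sq_nonneg (b.im - a.re)]
      · nlinarith [sq_nonneg (b.re - a.im), sq_nonneg (b.im + a.re)]
    have k2 : |μ.im * (2 * (b.re * a.im - b.im * a.re))| ≤
        mi * ((a.re * a.re + a.im * a.im) + (b.re * b.re + b.im * b.im)) := by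
      rw [abs_mul]
      exact mul_le_mul hmi k1 (abs_nonneg _) hmi0
    have k3 := (abs_le.mp k2).1
    linarith
  have z1 : x ^ 2 * (a.re * a.re + a.im * a.im) ≤ X0 ^ 2 * (a.re * a.re + a.im * a.im) :=
    mul_le_mul_of_nonneg_right hX2 na
  have z2 : x ^ 2 * (b.re * b.re + b.im * b.im) ≤ X0 ^ 2 * (b.re * b.re + b.im * b.im) :=
    mul_le_mul_of_nonneg_right hX2 nb
  have z3 : V * (a.re * a.re + a.im * a.im) ≤ va * (a.re * a.re + a.im * a.im) :=
    mul_le_mul_of_nonneg_right hva na
  have z4 : V * (b.re * b.re + b.im * b.im) ≤ vb * (b.re * b.re + b.im * b.im) :=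
    mul_le_mul_of_nonneg_right hvb nb
  nlinarith [y1, y2, y3, z1, z2, z3, z4]

/-- The boundary term: `w' = -k w + e` with `Re k ≥ κ > 0`. -/
theorem bdry_le {κ : ℝ} (hκ : 0 < κ) {w w1 k e : ℂ} (hk : κ ≤ k.re) (hw : w1 = -k * w + e) :
    (w1 * conj w).re ≤ normSq e / (4 * κ) := by
  subst hw
  have h1 : ((-k * w + e) * conj w).re = -(k.re * normSq w) + (e * conj w).re := by
    simp only [Complex.normSq_apply, Complex.add_re, Complex.mul_re, Complex.neg_re,
      Complex.neg_im, Complex.conj_re, Complex.conj_im, Complex.mul_im, Complex.add_im]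
    ring
  rw [h1]
  have h2 : κ * normSq w ≤ k.re * normSq w := mul_le_mul_of_nonneg_right hk (normSq_nonneg _)
  have h3 : (e * conj w).re ≤ normSq e / (4 * κ) + κ * normSq w := by
    rw [div_add' _ _ _ (by positivity), le_div_iff₀ (by positivity)]
    simp only [Complex.normSq_apply, Complex.mul_re, Complex.conj_re, Complex.conj_im]
    nlinarith [sq_nonneg (e.re - 2 * κ * w.re), sq_nonneg (e.im - 2 * κ * w.im)]
  linarith

/-- If a nonnegative function, continuous on `(0,b]`, integrable, has integral `≤ 0`, it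
vanishes on `(0,b]`. -/
theorem eq_zero_of_integral_nonpos {b : ℝ} (hb : 0 < b) {f : ℝ → ℝ}
    (hc : ContinuousOn f (Ioc 0 b)) (hi : IntervalIntegrable f volume 0 b)
    (h0 : ∀ r ∈ Ioc 0 b, 0 ≤ f r) (hI : ∫ r in (0 : ℝ)..b, f r ≤ 0) :
    ∀ r ∈ Ioc 0 b, f r = 0 := by
  have hI0 : ∫ r in (0 : ℝ)..b, f r = 0 := by
    refine le_antisymm hI ?_
    rw [intervalIntegral.integral_of_le hb.le]
    exact setIntegral_nonneg measurableSet_Ioc h0
  rw [intervalIntegral.integral_of_le hb.le] at hI0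
  have hae : f =ᵐ[volume.restrict (Ioc 0 b)] 0 := by
    have hi' : IntegrableOn f (Ioc 0 b) := (intervalIntegrable_iff_integrableOn_Ioc_of_le hb.le).1 hi
    refine (setIntegral_eq_zero_iff_of_nonneg_ae ?_ hi').1 hI0
    exact (ae_restrict_iff' measurableSet_Ioc).2 (ae_of_all _ h0)
  have hco : ContinuousOn f (Ioo 0 b) := hc.mono Ioo_subset_Ioc_self
  have hae' : f =ᵐ[volume.restrict (Ioo 0 b)] 0 :=
    ae_mono (Measure.restrict_mono Ioo_subset_Ioc_self le_rfl) hae
  have hE : EqOn f 0 (Ioo 0 b) :=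
    Measure.eqOn_open_of_ae_eq hae' isOpen_Ioo hco continuousOn_const
  intro r hr
  rcases eq_or_lt_of_le hr.2 with h | h
  · subst h
    -- continuity at the right end point
    have hcw : ContinuousWithinAt f (Ioo 0 r) r :=
      (hc r hr).mono Ioo_subset_Ioc_self
    have hlim : Tendsto f (𝓝[Ioo 0 r] r) (𝓝 (f r)) := hcw
    have hlim0 : Tendsto f (𝓝[Ioo 0 r] r) (𝓝 0) := by
      refine tendsto_const_nhds.congr' ?_
      filter_upwards [self_mem_nhdsWithin] with x hx
      exact (hE hx).symm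
    have hne : (𝓝[Ioo 0 r] r).NeBot := by
      rw [nhdsWithin_Ioo_eq_nhdsLT hb]
      infer_instance
    exact tendsto_nhds_unique hlim hlim0
  · exact hE ⟨hr.1, h⟩

variable {c0 : ℝ} {μ : ℂ} {M X VA VB M' X' VA' VB' : ℝ → ℝ} {A B A1 B1 A2 B2 : ℝ → ℂ} {b : ℝ}

/-- **Large angular momentum.** No upper bound on `V`. -/
theorem bigL (h : SysOn c0 μ M X VA VB M' X' VA' VB' A B A1 B1 A2 B2 b)
    {V X0 κ ε : ℝ} (hV : ∀ r ∈ Ioc 0 b, V ≤ VA r ∧ V ≤ VB r)
    (hX : ∀ r ∈ Ioc 0 b, |X r| ≤ X0) (hκ : 0 < κ) {ku kv eu ev : ℂ}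
    (hku : κ ≤ ku.re) (hkv : κ ≤ kv.re)
    (hu : A1 b + I * B1 b = -ku * (A b + I * B b) + eu)
    (hv : A1 b - I * B1 b = -kv * (A b - I * B b) + ev)
    (he : M b * (normSq eu + normSq ev) ≤
      ε * ∫ r in (0 : ℝ)..b, M r * (normSq (A r) + normSq (B r)))
    (hbig : X0 ^ 2 + |μ.im| + ε / (8 * κ) < V) :
    ∀ r ∈ Ioc 0 b, A r = 0 ∧ B r = 0 := by
  have hb := h.hb
  -- integrability
  have iM : IntervalIntegrable (fun r => M r * (normSq (A r) + normSq (B r))) volume 0 b :=
    BC.intble hb ((h.bcMA.add h.bcMB).congr fun r _ => by ring)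
  have iM1 : IntervalIntegrable (fun r => M r * (normSq (A1 r) + normSq (B1 r))) volume 0 b :=
    BC.intble hb ((h.bcMA1.add h.bcMB1).congr fun r _ => by ring)
  have iA : IntervalIntegrable (fun r => (M r * (((normSq (A1 r) + VA r * normSq (A r) : ℝ) : ℂ)
        + (μ * B r + X r * B1 r + c0 * B r) * conj (A r)) : ℂ)) volume 0 b := by
    refine BC.intble hb ?_
    refine BC.congr ((h.bcMA1.add h.bcMVA).ofReal.add (((BC.const μ).mul
      (h.bcM0.ofReal.mul (h.bcB.mul h.bcA.conj_))).add h.bcMD0BA)) ?_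
    intro r _
    push_cast
    ring
  have iB : IntervalIntegrable (fun r => (M r * (((normSq (B1 r) + VB r * normSq (B r) : ℝ) : ℂ)
        - (μ * A r + X r * A1 r + c0 * A r) * conj (B r)) : ℂ)) volume 0 b := by
    refine BC.intble hb ?_
    refine BC.congr ((h.bcMB1.add h.bcMVB).ofReal.sub (((BC.const μ).mul
      (h.bcM0.ofReal.mul (h.bcA.mul h.bcB.conj_))).add h.bcMD0AB)) ?_
    intro r _
    push_cast
    ring
  have iAr : IntervalIntegrable (fun r =>
      ((M r * (((normSq (A1 r) + VA r * normSq (A r) : ℝ) : ℂ)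
        + (μ * B r + X r * B1 r + c0 * B r) * conj (A r)) : ℂ)).re) volume 0 b :=
    ⟨Complex.reCLM.integrable_comp iA.1, Complex.reCLM.integrable_comp iA.2⟩
  have iBr : IntervalIntegrable (fun r =>
      ((M r * (((normSq (B1 r) + VB r * normSq (B r) : ℝ) : ℂ)
        - (μ * A r + X r * A1 r + c0 * A r) * conj (B r)) : ℂ)).re) volume 0 b :=
    ⟨Complex.reCLM.integrable_comp iB.1, Complex.reCLM.integrable_comp iB.2⟩
  -- real parts of the identities
  have eA : ∫ r in (0 : ℝ)..b, ((M r * (((normSq (A1 r) + VA r * normSq (A r) : ℝ) : ℂ)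
        + (μ * B r + X r * B1 r + c0 * B r) * conj (A r)) : ℂ)).re
      = ((M b : ℂ) * (A1 b * conj (A b))).re := by
    rw [← h.intA]
    exact (Complex.reCLM.intervalIntegral_comp_comm iA)
  have eB : ∫ r in (0 : ℝ)..b, ((M r * (((normSq (B1 r) + VB r * normSq (B r) : ℝ) : ℂ)
        - (μ * A r + X r * A1 r + c0 * A r) * conj (B r)) : ℂ)).re
      = ((M b : ℂ) * (B1 b * conj (B b))).re := by
    rw [← h.intB]
    exact (Complex.reCLM.intervalIntegral_comp_comm iB)
  -- lower bound
  have low : ∫ r in (0 : ℝ)..b, (3 / 4 * (M r * (normSq (A1 r) + normSq (B1 r)))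
        + (V - X0 ^ 2 - |μ.im|) * (M r * (normSq (A r) + normSq (B r))))
      ≤ ((M b : ℂ) * (A1 b * conj (A b))).re + ((M b : ℂ) * (B1 b * conj (B b))).re := by
    rw [← eA, ← eB, ← intervalIntegral.integral_add iAr iBr]
    refine intervalIntegral.integral_mono_on_of_le_Ioo hb.le
      ((iM1.const_mul _).add (iM.const_mul _)) (iAr.add iBr) ?_
    intro r hr
    have hr' : r ∈ Ioc 0 b := ⟨hr.1, hr.2.le⟩
    have := pair_coercive (c0 := c0) (μ := μ) (a := A r) (b := B r) (a1 := A1 r) (b1 := B1 r)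
      (h.Mpos r hr').le (hV r hr').1 (hV r hr').2 (hX r hr') (le_refl |μ.im|)
    refine le_trans (le_of_eq ?_) this
    ring
  rw [intervalIntegral.integral_add (iM1.const_mul _) (iM.const_mul _),
    intervalIntegral.integral_const_mul, intervalIntegral.integral_const_mul] at low
  -- boundary
  have bd : ((M b : ℂ) * (A1 b * conj (A b))).re + ((M b : ℂ) * (B1 b * conj (B b))).re
      ≤ M b * (normSq eu + normSq ev) / (8 * κ) := by
    have b1 := bdry_le hκ hku hu
    have b2 := bdry_le hκ hkv hv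
    have hMb := (h.Mpos b ⟨hb, le_rfl⟩).le
    have e1 : ((M b : ℂ) * (A1 b * conj (A b))).re + ((M b : ℂ) * (B1 b * conj (B b))).re
        = M b / 2 * (((A1 b + I * B1 b) * conj (A b + I * B b)).re
          + ((A1 b - I * B1 b) * conj (A b - I * B b)).re) := by
      rw [Complex.re_ofReal_mul, Complex.re_ofReal_mul]
      simp only [Complex.add_re, Complex.mul_re, Complex.sub_re, map_add, map_sub, map_mul,
        Complex.conj_I, Complex.conj_re, Complex.conj_im, Complex.I_re, Complex.I_im,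
        Complex.add_im, Complex.mul_im, Complex.sub_im, Complex.neg_re, Complex.neg_im]
      ring
    rw [e1]
    have : M b * (normSq eu + normSq ev) / (8 * κ)
        = M b / 2 * (normSq eu / (4 * κ) + normSq ev / (4 * κ)) := by
      field_simp
      ring
    rw [this]
    exact mul_le_mul_of_nonneg_left (add_le_add b1 b2) (by positivity)
  -- conclusion
  set N := ∫ r in (0 : ℝ)..b, M r * (normSq (A r) + normSq (B r)) with hN
  have hN0 : 0 ≤ N := by
    rw [hN, intervalIntegral.integral_of_le hb.le]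
    refine setIntegral_nonneg measurableSet_Ioc fun r hr => ?_
    exact mul_nonneg (h.Mpos r hr).le (add_nonneg (normSq_nonneg _) (normSq_nonneg _))
  have hN1 : 0 ≤ ∫ r in (0 : ℝ)..b, M r * (normSq (A1 r) + normSq (B1 r)) := by
    rw [intervalIntegral.integral_of_le hb.le]
    refine setIntegral_nonneg measurableSet_Ioc fun r hr => ?_
    exact mul_nonneg (h.Mpos r hr).le (add_nonneg (normSq_nonneg _) (normSq_nonneg _))
  have bd2 : M b * (normSq eu + normSq ev) / (8 * κ) ≤ ε / (8 * κ) * N := by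
    rw [div_mul_eq_mul_div]
    exact div_le_div_of_nonneg_right he (by positivity)
  have hNle : N ≤ 0 := by
    by_contra hcon
    push Not at hcon
    have : (V - X0 ^ 2 - |μ.im|) * N ≤ ε / (8 * κ) * N := by nlinarith
    have h2 : V - X0 ^ 2 - |μ.im| ≤ ε / (8 * κ) := le_of_mul_le_mul_right this hcon
    linarith
  have hz := eq_zero_of_integral_nonpos hb (f := fun r => M r * (normSq (A r) + normSq (B r)))
    (((h.bcMA.add h.bcMB).congr fun r _ => by ring).1) iM
    (fun r hr => mul_nonneg (h.Mpos r hr).le (add_nonneg (normSq_nonneg _) (normSq_nonneg _)))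
    hNle
  intro r hr
  have h1 := hz r hr
  have h2 : normSq (A r) + normSq (B r) = 0 :=
    (mul_eq_zero.mp h1).resolve_left (h.Mpos r hr).ne'
  have h3 : normSq (A r) = 0 := by
    have := normSq_nonneg (A r); have := normSq_nonneg (B r); linarith
  have h4 : normSq (B r) = 0 := by
    have := normSq_nonneg (A r); have := normSq_nonneg (B r); linarith
  exact ⟨normSq_eq_zero.mp h3, normSq_eq_zero.mp h4⟩

end Vale.Agent.P139.H381
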